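import Crest.Agent.X212.Cgr76.Y
import Crest.Agent.X212.Crt72.Plan

/-! # Row 212, CRIT-AX (helper37): the dictionary between `Y` and the Banach model -/

set_option autoImplicit false
set_option linter.unusedSectionVars false
noncomputable section
open scoped Manifold ContDiff Topology InnerProductSpace
open MeasureTheory Set Function Filter

namespace Crest.Agent.X212.Ax37
open An An.Pre Sob92 Cyf70 Dgr80 Nd18 Crt72 Cgr76

variable {E3 : Type} [NormedAddCommGroup E3] [NormedSpace ℝ E3] [FiniteDimensional ℝ E3]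
  [MeasurableSpace E3] [BorelSpace E3]
  {H3 : Type} [TopologicalSpace H3] {I3 : ModelWithCorners ℝ E3 H3} [I3.Boundaryless]
  {Y : Type} [TopologicalSpace Y] [ChartedSpace H3 Y] [IsManifold I3 ∞ Y] [T2Space Y]
  [MeasurableSpace Y] [BorelSpace Y] [SecondCountableTopology Y] [CompactSpace Y]
  {κ : Type} [Fintype κ] {lam : Type} [Fintype lam] {D : YD I3 Y κ lam} {β : YC Y κ lam}
  {k j l : ℕ}

variable (D β) in
/-- `e` is the projected gradient of `u` at `β` -/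
def Vg (u : YF Y κ lam) (e : CC D β l) : Prop := ∀ y,
  D.F.val l _ e.1 y = pc D β y (u.gA β y) ∧ D.F.val l _ e.2 y = pv D β y (u.gP β y)

theorem vg_rp {u : YF Y κ lam} {T : CC D β j → CC D β l} (hT : RpT D β u j l T) :
    Vg D β u (T 0) := fun y => by
  have := hT.2 0 y
  rw [map_zero, (g_cf_zero u β).1, (g_cf_zero u β).2] at this
  exact this

theorem f_rp {u : YF Y κ lam} {f : CC D β j → ℝ} (hf : Rpf D β u j f) : f 0 = u.f β := by
  have := hf.2 0
  rwa [map_zero, cf_zero] at this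

theorem inner_pc (y : Y) (a b : Fm κ β.m.A) : ⟪pc D β y a, b⟫_ℝ = ⟪a, pc D β y b⟫_ℝ :=
  Wz78.inner_idx (fun a b => D.F.P_symm a b y) (Wz78.inner_pg y) a b

variable (h : HY D)
include h

theorem Vg.incl {u : YF Y κ lam} {e : CC D β l} (he : Vg D β u e) (hj : 4 ≤ j) (hl : j ≤ l) :
    Vg D β u (iC D β l j e) := fun y =>
  ⟨(congrFun (val_incl (hS h) hj hl e.1) y).trans (he y).1,
    (congrFun (val_incl (hS h) hj hl e.2) y).trans (he y).2⟩

variable (hβ : D.Adm β)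
include hβ

theorem inner_pv (y : Y) (a b : β.m.V) : ⟪pv D β y a, b⟫_ℝ = ⟪a, pv D β y b⟫_ℝ :=
  Std94.pp_sym (ok3 h.ok) (Std94.pmx (mok hβ) y) a b

theorem Vg.bb {u : YF Y κ lam} {e : CC D β l} (he : Vg D β u e) (hl : 4 ≤ l) (hj : 4 ≤ j)
    (y : SP D β) : bb D β l j e (pt D β j y) = ipg D u β y.1.1 y.2.1 := by
  rw [bb_eq h hl hj, val_pt1 h hj, val_pt2 h hj, ← integral_add
    (D.F.integrable_inner (continuous_val (hS h) hl _) (.of_compactSpace _) y.1.2.1.continuous)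
    (D.F.integrable_inner (continuous_val (hS h) hl _) (.of_compactSpace _) y.2.2.1.continuous)]
  refine congrArg (integral D.F.μ) (funext fun x => ?_)
  rw [(he x).1, (he x).2, inner_pc, inner_pv h hβ, y.1.2.2.2 x, y.2.2.2.2 x]

omit h in
theorem J_eq_zero {v : β.m.V} (e : β.m.J v = 0) : v = 0 := by
  have := congrArg (· v) (mok hβ).Jsq
  simp only [mul_apply_eq_comp, e, map_zero, neg_apply, one_apply_eq_self] at this
  exact neg_eq_zero.1 this.symm

theorem jv_eq_zero (hj : 4 ≤ j) (v : CC D β j) : jv D β j v = 0 ↔ ∀ y, sv D β v y = 0 := by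
  refine ⟨fun e y => J_eq_zero hβ ?_, fun e => cc_ext h hj (fun y a => rfl) fun y => ?_⟩
  · rw [← val_jv2 h hβ hj, e]
    exact congrFun val_zero y
  · rw [val_jv2 h hβ hj, e, map_zero]
    exact (congrFun val_zero y).symm

omit h hβ in
theorem sv_zero : sv D β (0 : CC D β j) = β.Φ := funext fun y => by
  rw [sv, Prod.snd_zero, val_zero, Pi.zero_apply, add_zero]

omit h hβ in
theorem cv_zero : Cgr76.cv D β (0 : CC D β j) = cn β := funext₂ fun a y => by
  rw [Cgr76.cv, Prod.fst_zero, val_zero, Pi.zero_apply, PiLp.zero_apply, map_zero, add_zero]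

theorem jv_zero (hj : 4 ≤ j) : jv D β j 0 = 0 ↔ D.Zr β := by
  rw [jv_eq_zero h hβ hj, sv_zero]; rfl

theorem pt_eq_dv (hj : 7 ≤ j) {y : SP D β} {ξ : Sec I3 β.m.pg} (h1 : y.1.1 = dga D β ξ.1)
    (h2 : y.2.1 = dgp β ξ.1) : pt D β j y = Crt72.dv D β j 0 (D.F.toH (j + 1) _ ξ) := by
  have h4 : 4 ≤ j := by omega
  refine cc_ext h h4 (fun x a => ?_) fun x => ?_
  · rw [val_pt1 h h4, val_dv1 h hβ hj, val_toH (hS h) (by omega), cv_zero, h1]; rfl
  · rw [val_pt2 h h4, val_dv2 h hβ hj, val_toH (hS h) (by omega), sv_zero, h2]; rfl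

omit hβ in
theorem sw_pos (hs : Continuous β.Φ) (hz : ¬D.Zr β) : 0 < (YF.sw D.F .one [] []).f β := by
  have := openPos D.F.toPre
  obtain ⟨y, hy⟩ := not_forall.1 hz
  have h0 : ∀ x, √(1 + ‖β.Φ x‖ ^ 2) ≠ 0 := fun x => (Real.sqrt_pos.2 (by positivity)).ne'
  have hc : Continuous (nP β) := (Continuous.inv₀ (by fun_prop) h0).smul hs
  refine integral_pos_of_integrable_nonneg_nonzero (f := fun x => ⟪nP β x, nP β x⟫_ℝ) (x := y)
    (hc.inner hc) (D.F.integrable_inner hc (.of_compactSpace _) hc)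
    (fun x => real_inner_self_nonneg) fun e => hy ?_
  exact (smul_eq_zero.1 (inner_self_eq_zero.1 e)).resolve_left (inv_ne_zero (h0 y))

variable (hk : 7 ≤ k)
include hk

theorem vg_τ {i : BB D} (hs : Sm1 D i) :
    Vg D β (yf D i) (iC D β (k + 1) k (mT D β (yf D i) (k + 1) (k + 1) 0)) :=
  (vg_rp (Classical.epsilon_spec (hs.T β hβ k hk))).incl h (by omega) k.le_succ

omit h in
theorem vg_F0 (ho : Op3 D) : Vg D β (YF.z0 D) (mT D β (YF.z0 D) (k + 1) k 0) :=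
  vg_rp (Classical.epsilon_spec ((ho β hβ).2 k hk))

omit h in
theorem f_zero {i : BB D} (hs : Sm1 D i) : mf D β (yf D i) (k + 1) 0 = (yf D i).f β :=
  f_rp (Classical.epsilon_spec (hs.f β hβ k hk))

theorem bb_τ {i : BB D} (hs : Sm1 D i) (y : SP D β) :
    Crt72.bb D β k (k + 1) (iC D β (k + 1) k (mT D β (yf D i) (k + 1) (k + 1) 0))
      (pt D β (k + 1) y) = ipg D (yf D i) β y.1.1 y.2.1 :=
  (vg_τ h hβ hk hs).bb h hβ (by omega) (by omega) y

theorem solY (ho : Op3 D) (hs : ∀ i, Sm1 D i) {S : Finset (BB D)} {c : BB D → ℝ}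
    (e : mT D β (YF.z0 D) (k + 1) k 0 +
      ∑ i ∈ S, c i • iC D β (k + 1) k (mT D β (yf D i) (k + 1) (k + 1) 0) = 0) :
    SolY D S c β := fun y => by
  have h1 := congrArg (fun v : CC D β k => D.F.ev k _ y v.1) e
  have h2 := congrArg (fun v : CC D β k => D.F.ev k _ y v.2) e
  simp only [Prod.fst_add, Prod.snd_add, Prod.fst_sum, Prod.snd_sum, Prod.smul_fst, Prod.smul_snd,
    map_add, map_sum, map_smul, Prod.fst_zero, Prod.snd_zero, map_zero] at h1 h2 ⊢
  constructor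
  · rw [← h1, ← (vg_F0 hβ hk ho y).1]
    exact congrArg _ (Finset.sum_congr rfl fun i _ => by rw [← (vg_τ h hβ hk (hs i) y).1]; rfl)
  · rw [← h2, ← (vg_F0 hβ hk ho y).2]
    exact congrArg _ (Finset.sum_congr rfl fun i _ => by rw [← (vg_τ h hβ hk (hs i) y).2]; rfl)

omit h hβ hk in
variable (D) in
/-- **CRIT-AX.** -/
theorem ax : AxStmt D := by
  intro h _ ho hs hl cpt der sep deri k hk act sf
  have h4 : 4 ≤ k + 1 := by omega
  have h7 : 7 ≤ k + 1 := by omega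
  refine ⟨fun S R ι 𝒰 c x hc hx => ?_, ⟨fun o u ⟨y, hy⟩ hJ hb => ?_, fun o hJ => ?_,
    fun o o' hJ hf => ?_⟩, fun o u ⟨y, hy⟩ hJ hI hu hb => ?_⟩
  · obtain ⟨o, y, h1, h2, h3⟩ := cpt h hs hl S R ι 𝒰 c (fun n => (x n).1) hc fun n =>
      ⟨(x n).2, solY h (x n).2 hk ho hs (hx n)⟩
    exact ⟨⟨o, h1⟩, fun n => pt D o (k + 1) (y n), h2 _, h3.mono fun n hn => ⟨y n, rfl, hn⟩⟩
  · subst hy
    obtain ⟨ξ, h1, h2⟩ := der h o.1 o.2 (mt (jv_zero h o.2 h4).2 hJ) y fun i hi =>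
      (bb_τ h o.2 hk (hs i) y).symm.trans (hb i hi)
    exact ⟨_, pt_eq_dv h o.2 h7 h1 h2⟩
  · refine ⟨⟨([], []), by simp [YDen.OK]⟩, ?_⟩
    exact ((f_zero o.2 hk (hs (.sw ⟨([], []), by simp [YDen.OK]⟩))).trans_ne
      (sw_pos h (sm_Φ o.2).continuous (mt (jv_zero h o.2 h4).2 hJ)).ne' :)
  · exact sep h o.1 o'.1 o.2 o'.2 (mt (jv_zero h o.2 h4).2 hJ) fun i hi =>
      (f_zero o.2 hk (hs i)).symm.trans ((hf i hi).trans (f_zero o'.2 hk (hs i)))
  · subst hy
    have hz := (jv_zero h o.2 h4).1 hJ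
    have h0 : y.2.1 = 0 := funext fun x => by
      have := (jv_eq_zero h o.2 h4 _).1 hu x
      rwa [sv, hz x, zero_add, val_pt2 h h4] at this
    obtain ⟨ξ, h1⟩ := deri h o.1 o.2 hz hI y.1 fun i =>
      h0 ▸ (bb_τ h o.2 hk (hs (.cy i)) y).symm.trans (hb i)
    refine ⟨_, pt_eq_dv h o.2 h7 h1 (h0.trans (funext fun x => ?_))⟩
    rw [dgp, hz x, map_zero]; rfl

end Crest.Agent.X212.Ax37
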